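import Vale.Agent.P089GO.Sum
import Mathlib.Analysis.Normed.Lp.lpHolder
import Mathlib.Analysis.InnerProductSpace.l2Space

/-! The infinite sum of a degenerate cycle. -/

set_option linter.unusedSectionVars false

namespace Vale.Agent.P089GO

open scoped InnerProductSpace ZeroAtInfty
open Vale.Agent.P089Z ContinuousLinearMap

/-- The Hilbert space `ℓ²(ℕ, H)`. -/
abbrev L (H : Type) [NormedAddCommGroup H] : Type := lp (fun _ : ℕ => H) 2

section

variable {H : Type} [NormedAddCommGroup H] [InnerProductSpace ℂ H]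

theorem opL_ext {M : Type} [NormedAddCommGroup M] [InnerProductSpace ℂ M] {A B : M →L[ℂ] L H}
    (h : ∀ x i, A x i = B x i) : A = B :=
  ContinuousLinearMap.ext fun x => lp.ext (funext (h x))

/-- The amplification of an operator. -/
noncomputable def am (T : H →L[ℂ] H) : L H →L[ℂ] L H :=
  lp.mapCLM 2 (fun _ => T) (norm_nonneg T) fun _ => le_rfl

@[simp] theorem am_apply (T : H →L[ℂ] H) (x : L H) (i : ℕ) : am T x i = T (x i) := rfl

theorem am_mul (A B : H →L[ℂ] H) : am A * am B = am (A * B) := opL_ext fun _ _ => rfl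
theorem am_add (A B : H →L[ℂ] H) : am A + am B = am (A + B) := opL_ext fun _ _ => rfl
theorem am_neg (A : H →L[ℂ] H) : -am A = am (-A) := opL_ext fun _ _ => rfl
theorem am_smul (c : ℂ) (A : H →L[ℂ] H) : c • am A = am (c • A) := opL_ext fun _ _ => rfl
theorem am_one : am (1 : H →L[ℂ] H) = 1 := opL_ext fun _ _ => rfl
theorem am_zero : am (0 : H →L[ℂ] H) = 0 := opL_ext fun _ _ => rfl

variable (H) in
/-- The inclusion of the first summand. -/
noncomputable def s0 : H →L[ℂ] L H := lp.singleContinuousLinearMap ℂ (fun _ : ℕ => H) 2 0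

theorem s0_zero (x : H) : s0 H x 0 = x := lp.single_apply_self (E := fun _ : ℕ => H) 2 0 x

theorem s0_succ (x : H) (i : ℕ) : s0 H x (i + 1) = 0 :=
  lp.single_apply_ne (E := fun _ : ℕ => H) 2 0 x (Nat.succ_ne_zero i)

theorem tail_sum (x : L H) (s : Finset ℕ) :
    ∑ i ∈ s, ‖x (i + 1)‖ ^ (2 : ENNReal).toReal ≤ ‖x‖ ^ (2 : ENNReal).toReal := by
  have h := lp.sum_rpow_le_norm_rpow (by norm_num) x (s.map ⟨Nat.succ, Nat.succ_injective⟩)
  rwa [Finset.sum_map] at h

variable (H) in
/-- The backward shift. -/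
noncomputable def tl : L H →L[ℂ] L H :=
  LinearMap.mkContinuous
    { toFun x := ⟨fun i => x (i + 1), memℓp_gen' (tail_sum x)⟩
      map_add' _ _ := rfl
      map_smul' _ _ := rfl } 1 fun x => by
    rw [one_mul]
    exact lp.norm_le_of_forall_sum_le (by norm_num) (norm_nonneg x) (tail_sum x)

@[simp] theorem tl_apply (x : L H) (i : ℕ) : tl H x i = x (i + 1) := rfl

theorem L_sep [TopologicalSpace.SeparableSpace H] : TopologicalSpace.SeparableSpace (L H) := by
  rw [← TopologicalSpace.isSeparable_univ_iff]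
  have h1 : TopologicalSpace.IsSeparable (⋃ i : ℕ,
      Set.range (lp.singleContinuousLinearMap ℂ (fun _ : ℕ => H) 2 i)) :=
    .iUnion fun i => TopologicalSpace.isSeparable_range (map_continuous _)
  refine (h1.span (R := ℂ)).closure.mono fun x _ => ?_
  refine mem_closure_of_tendsto (lp.hasSum_single (by norm_num) x) (.of_forall fun s => ?_)
  exact Submodule.sum_mem _ fun i _ =>
    Submodule.subset_span (Set.mem_iUnion.2 ⟨i, x i, rfl⟩)

variable [CompleteSpace H]

theorem am_star (A : H →L[ℂ] H) : star (am A) = am (star A) := by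
  symm
  rw [star_eq_adjoint (am A), eq_adjoint_iff]
  intro x y
  simp only [lp.inner_eq_tsum, am_apply, star_eq_adjoint, adjoint_inner_left]

theorem adj_s0 (x : L H) : adjoint (s0 H) x = x 0 := by
  refine ext_inner_left ℂ fun a => ?_
  rw [adjoint_inner_right]
  exact lp.inner_single_left (𝕜 := ℂ) (G := fun _ : ℕ => H) 0 a x

variable (H) in
/-- The forward shift. -/
noncomputable def sh : L H →L[ℂ] L H := adjoint (tl H)

theorem adj_sh : adjoint (sh H) = tl H := adjoint_adjoint _

theorem sh_zero (x : L H) : sh H x 0 = 0 := by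
  refine ext_inner_left ℂ fun a => ?_
  have h : tl H (lp.single 2 0 a) = 0 := lp.ext (funext fun i => s0_succ a i)
  rw [← lp.inner_single_left (G := fun _ : ℕ => H) 0 a (sh H x), sh, adjoint_inner_right, h,
    inner_zero_left, inner_zero_right]

theorem sh_succ (x : L H) (i : ℕ) : sh H x (i + 1) = x i := by
  refine ext_inner_left ℂ fun a => ?_
  have h : tl H (lp.single 2 (i + 1) a) = lp.single 2 i a := lp.ext (funext fun j => by
    rw [tl_apply]
    by_cases hj : j = i
    · subst hj
      rw [lp.single_apply_self, lp.single_apply_self]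
    · rw [lp.single_apply_ne _ _ _ hj, lp.single_apply_ne _ _ _ (by omega)])
  rw [← lp.inner_single_left (G := fun _ : ℕ => H) (i + 1) a (sh H x), sh, adjoint_inner_right, h,
    lp.inner_single_left]

theorem adj_s0_s0 : adjoint (s0 H) ∘L s0 H = 1 :=
  ContinuousLinearMap.ext fun x => (adj_s0 _).trans (s0_zero x)

theorem adj_sh_sh : adjoint (sh H) ∘L sh H = 1 := by
  rw [adj_sh]
  exact opL_ext fun x i => sh_succ x i

theorem s_sum : s0 H ∘L adjoint (s0 H) + sh H ∘L adjoint (sh H) = 1 := by
  rw [adj_sh]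
  refine opL_ext fun x i => ?_
  change s0 H (adjoint (s0 H) x) i + sh H (tl H x) i = x i
  cases i with
  | zero => rw [s0_zero, sh_zero, adj_s0, add_zero]
  | succ i => rw [s0_succ, sh_succ, tl_apply, zero_add]

theorem am_s0 (A : H →L[ℂ] H) : am A ∘L s0 H = s0 H ∘L A := by
  refine opL_ext fun x i => ?_
  change A (s0 H x i) = s0 H (A x) i
  cases i with
  | zero => rw [s0_zero, s0_zero]
  | succ i => rw [s0_succ, s0_succ, map_zero]

theorem am_sh (A : H →L[ℂ] H) : am A ∘L sh H = sh H ∘L am A := by
  refine opL_ext fun x i => ?_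
  change A (sh H x i) = sh H (am A x) i
  cases i with
  | zero => rw [sh_zero, sh_zero, map_zero]
  | succ i => rw [sh_succ, sh_succ, am_apply]

/-- The amplification of a representation. -/
noncomputable def amHom {A : Type} [NonUnitalNonAssocSemiring A] [DistribMulAction ℂ A] [Star A]
    (ρ : A →⋆ₙₐ[ℂ] (H →L[ℂ] H)) : A →⋆ₙₐ[ℂ] (L H →L[ℂ] L H) where
  toFun a := am (ρ a)
  map_smul' c a := by rw [map_smul, ← am_smul]; rfl
  map_zero' := by rw [map_zero, am_zero]
  map_add' a b := by rw [map_add, am_add]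
  map_mul' a b := by rw [map_mul, am_mul]
  map_star' a := by rw [map_star, am_star]

/-- The amplification of a unitary representation. -/
noncomputable def amU {G : Type} [Group G] (U : G →* unitary (H →L[ℂ] H)) :
    G →* unitary (L H →L[ℂ] L H) where
  toFun g := ⟨am (U g).1, by
    constructor
    · rw [am_star, am_mul, (U g).2.1, am_one]
    · rw [am_star, am_mul, (U g).2.2, am_one]⟩
  map_one' := Subtype.ext (by
    change am (U 1).1 = 1
    rw [map_one]
    exact am_one)
  map_mul' g h := Subtype.ext (by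
    change am (U (g * h)).1 = am (U g).1 * am (U h).1
    rw [map_mul, am_mul]
    rfl)

end

variable {G X : Type} [Group G] [TopologicalSpace X] [MulAction G X] [ContinuousConstSMul G X]
  {H : Type} [NormedAddCommGroup H] [InnerProductSpace ℂ H] [CompleteSpace H]

/-- The infinite sum of a degenerate cycle. -/
noncomputable def Deg.inf {Z : Cycle G X H} (h : Deg Z) : Cycle G X (L H) where
  γ := am Z.γ
  ρ := amHom Z.ρ
  U := amU Z.U
  F := am Z.F
  γ_star := by rw [am_star, Z.γ_star]
  γ_sq := by rw [am_mul, Z.γ_sq, am_one]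
  ρ_even f := by
    change am _ * am _ = am _ * am _
    rw [am_mul, am_mul, Z.ρ_even]
  U_even g := by
    change am _ * am _ = am _ * am _
    rw [am_mul, am_mul, Z.U_even]
  F_odd := by rw [am_mul, am_mul, am_neg, Z.F_odd]
  covariant g f := by
    change am _ * am _ * am _ = am _
    rw [am_mul, am_mul, Z.covariant]
  compact_sq f := by
    rw [am_mul, h.sq, am_one, sub_self, mul_zero]
    exact Cp.zero
  compact_star f := by
    rw [am_star, h.sa, sub_self, mul_zero]
    exact Cp.zero
  compact_comm f := by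
    change IsCompactOperator (am _ * am _ - am _ * am _ : L H →L[ℂ] L H)
    rw [am_mul, am_mul, h.comm, sub_self]
    exact Cp.zero
  compact_inv g f := by
    change IsCompactOperator (am _ * (am _ * am _ * am _ - am _) : L H →L[ℂ] L H)
    rw [am_mul, am_mul, ← h.inv, mul_assoc, Z.U_mul, mul_inv_cancel, Z.U_one, mul_one, sub_self,
      mul_zero]
    exact Cp.zero

theorem Deg.inf_γ {Z : Cycle G X H} (h : Deg Z) : h.inf.γ = am Z.γ := rfl
theorem Deg.inf_ρ {Z : Cycle G X H} (h : Deg Z) (f : C₀(X, ℂ)) : h.inf.ρ f = am (Z.ρ f) := rfl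
theorem Deg.inf_U {Z : Cycle G X H} (h : Deg Z) (g : G) : (h.inf.U g).1 = am (Z.U g).1 := rfl
theorem Deg.inf_F {Z : Cycle G X H} (h : Deg Z) : h.inf.F = am Z.F := rfl

end Vale.Agent.P089GO
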