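import Vale.Agent.P089G.Defs
import Vale.Agent.P089GS.Trans

/-! P089: homomorphisms out of `KG0`, and uniqueness of the assembly map. -/

set_option linter.unusedSectionVars false

namespace Vale.Agent.P089G

open Vale.Agent.P089Z Matrix Topology TopologicalSpace Vale.Agent.P089GS

universe v

section

variable {G X : Type} [Group G] [TopologicalSpace X] [MulAction G X] [ContinuousConstSMul G X]
  [CWComplex (Set.univ : Set X)] {Γ : Type v} [AddCommGroup Γ]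

theorem KG0.hom_ext {φ ψ : KG0 G X →+ Γ} (h : ∀ Y c, φ (KG0.cls Y c) = ψ (KG0.cls Y c)) :
    φ = ψ :=
  AddCommGroup.DirectLimit.hom_ext (G := fun Y : Sub G X => KK G Y.Y) (f := Sub.push) Γ
    fun Y => Pres.hom_ext fun c => h Y c

theorem KG0.mem_of (H : AddSubgroup (KG0 G X)) (h : ∀ Y c, KG0.cls Y c ∈ H) (x : KG0 G X) :
    x ∈ H := by
  have h1 : QuotientAddGroup.mk' H = 0 :=
    KG0.hom_ext fun Y c => (QuotientAddGroup.eq_zero_iff _).2 (h Y c)
  exact (QuotientAddGroup.eq_zero_iff x).1 (DFunLike.congr_fun h1 x)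

theorem KG0.map_mem (φ : KG0 G X →+ Γ) (H : AddSubgroup Γ) (h : ∀ Y c, φ (KG0.cls Y c) ∈ H)
    (x : KG0 G X) : φ x ∈ H :=
  KG0.mem_of (H.comap φ) h x

theorem Sub.push_of {Y Y' : Sub G X} (h : Y ≤ Y') (c : Cyc G Y.Y) :
    Sub.push Y Y' h (Pres.of _ _ c) = Pres.of _ _ (c.push (Sub.incl h) (Sub.incl_smul h)) :=
  Pres.map_of _ (Cyc.push_sim _ _) (Cyc.push_isSum _ _) c

theorem KG0.cls_push {Y Y' : Sub G X} (h : Y ≤ Y') (c : Cyc G Y.Y) :
    KG0.cls Y' (c.push (Sub.incl h) (Sub.incl_smul h)) = KG0.cls Y c := by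
  unfold KG0.cls
  rw [← Sub.push_of h c]
  exact AddCommGroup.DirectLimit.of_f h _

theorem KG0.cls_sim {Y : Sub G X} {a b : Cyc G Y.Y} (h : a.Sim b) :
    KG0.cls Y a = KG0.cls Y b :=
  congrArg (AddCommGroup.DirectLimit.of (fun Y : Sub G X => KK G Y.Y) Sub.push Y) (Pres.of_sim h)

theorem KG0.cls_sum {Y : Sub G X} {a b c : Cyc G Y.Y} (h : a.IsSum b c) :
    KG0.cls Y c = KG0.cls Y a + KG0.cls Y b :=
  (congrArg (AddCommGroup.DirectLimit.of (fun Y : Sub G X => KK G Y.Y) Sub.push Y)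
    (Pres.of_sum h)).trans (map_add _ _ _)

/-- The homomorphism given by a function on cycles which respects the relations. -/
noncomputable def KG0.lift (f : ∀ Y : Sub G X, Cyc G Y.Y → Γ)
    (hE : ∀ Y a b, Cyc.Sim a b → f Y a = f Y b)
    (hD : ∀ Y a b c, Cyc.IsSum a b c → f Y c = f Y a + f Y b)
    (hP : ∀ Y Y' (h : Y ≤ Y') c, f Y' (c.push (Sub.incl h) (Sub.incl_smul h)) = f Y c) :
    KG0 G X →+ Γ :=
  AddCommGroup.DirectLimit.lift (fun Y : Sub G X => KK G Y.Y) Sub.push Γ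
    (fun Y => Pres.lift (f Y) (hE Y) (hD Y)) fun Y Y' h x =>
      DFunLike.congr_fun (Pres.hom_ext
        (φ := (Pres.lift (f Y') (hE Y') (hD Y')).comp (Sub.push Y Y' h))
        (ψ := Pres.lift (f Y) (hE Y) (hD Y)) fun c => by
          rw [AddMonoidHom.comp_apply, Sub.push_of, Pres.lift_of, Pres.lift_of, hP]) x

theorem KG0.lift_cls (f : ∀ Y : Sub G X, Cyc G Y.Y → Γ)
    (hE : ∀ Y a b, Cyc.Sim a b → f Y a = f Y b)
    (hD : ∀ Y a b c, Cyc.IsSum a b c → f Y c = f Y a + f Y b)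
    (hP : ∀ Y Y' (h : Y ≤ Y') c, f Y' (c.push (Sub.incl h) (Sub.incl_smul h)) = f Y c)
    (Y : Sub G X) (c : Cyc G Y.Y) : KG0.lift f hE hD hP (KG0.cls Y c) = f Y c :=
  (AddCommGroup.DirectLimit.lift_of _ _ _ _ _).trans (Pres.lift_of _ _ _ c)

end

theorem Idem.cls_eq {R : Type} [Ring R] (a : Idem R) : a.cls = KZero.cls a.e a.idem :=
  KZero.of_eq a

theorem Idem.cls_mk {R : Type} [Ring R] {n : ℕ} (e : Matrix (Fin n) (Fin n) R) (h : e * e = e) :
    Idem.cls ⟨n, e, h⟩ = KZero.cls e h :=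
  KZero.of_eq ⟨n, e, h⟩

theorem isDiff_iff {B : Type} [Ring B] {A : Matrix (Fin 2) (Fin 2) B} {x : KZero B} :
    IsDiff A x ↔ ∃ h : addDiag A * addDiag A = addDiag A,
      x = KZero.cls (addDiag A) h - KZero.cls (diag01 B) (diag01_idem B) := by
  constructor
  · rintro ⟨h, h', rfl⟩
    exact ⟨h, by rw [Idem.cls_mk, Idem.cls_mk]⟩
  · rintro ⟨h, rfl⟩
    exact ⟨h, diag01_idem B, by rw [Idem.cls_mk, Idem.cls_mk]⟩

section

variable {G K E : Type} [Group G] [NormedAddCommGroup K] [InnerProductSpace ℂ K] [CompleteSpace K]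
  [NormedAddCommGroup E] [InnerProductSpace ℂ E] [CompleteSpace E]

theorem IsStab.unique {b : HilbertBasis G ℂ K} {c : HilbertBasis (G × ℕ) ℂ E}
    {κ κ' : KZero (cstar b) →+ KZero (stab c)} (h : IsStab b c κ) (h' : IsStab b c κ') :
    κ = κ' := by
  refine Pres.hom_ext fun q => ?_
  obtain ⟨e, he, h1, h2⟩ := h q
  obtain ⟨e', he', h1', h2'⟩ := h' q
  obtain rfl : e = e' := Matrix.ext fun j k => Subtype.ext (isCorner_unique (h1 j k) (h1' j k))
  exact h2.trans h2'.symm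

theorem isStab_map {b : HilbertBasis G ℂ K} {c : HilbertBasis (G × ℕ) ℂ E}
    (φ : cstar b →ₙ+* stab c) (h : ∀ x, P089.BC.IsCorner b c x.1 (φ x).1) :
    IsStab b c (KZero.map φ) := fun q =>
  ⟨q.e.map φ, (q.map φ).idem, fun _ _ => h _, Pres.map_of _ _ _ q⟩

theorem isStab_corE (b : HilbertBasis G ℂ K) (c : HilbertBasis (G × ℕ) ℂ E)
    (hA : ∀ T, T ∈ cstar b ↔ T ∈ P089.BC.CstarR b) (hB : ∀ T, T ∈ stab c ↔ P089.BC.IsU c T) :
    IsStab b c (KZero.map (corE b c (cstar b) hA (stab c) hB)) :=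
  isStab_map _ (isCorner_corE b c _ hA _ hB)

theorem IsIndex.unique {Y H : Type} [TopologicalSpace Y] [MulAction G Y] [ContinuousConstSMul G Y]
    [NormedAddCommGroup H] [InnerProductSpace ℂ H] [CompleteSpace H]
    {c : HilbertBasis (G × ℕ) ℂ E} {Z : Cycle G Y H} {x y : KZero (stab c)}
    (h : IsIndex c Z x) (h' : IsIndex c Z y) : x = y := by
  obtain ⟨A, hA⟩ := h.1
  obtain ⟨_, _, rfl⟩ := h.2 A hA
  obtain ⟨_, _, rfl⟩ := h'.2 A hA
  rfl

variable {X : Type} [TopologicalSpace X] [MulAction G X] [ContinuousConstSMul G X]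
  [CWComplex (Set.univ : Set X)]

theorem IsAssembly.unique {b : HilbertBasis G ℂ K} {μ μ' : KG0 G X →+ KZero (cstar b)}
    (h : IsAssembly b μ) (h' : IsAssembly b μ') : μ = μ' := by
  obtain ⟨κ, h1, h2, h3⟩ := h (lp (fun _ : G × ℕ => ℂ) 2) default
  obtain ⟨κ', h1', -, h3'⟩ := h' (lp (fun _ : G × ℕ => ℂ) 2) default
  obtain rfl := h1.unique h1'
  refine KG0.hom_ext fun Y c => h2 ?_
  obtain @⟨H, _, _, _, _, Z⟩ := c
  exact (h3 Y H Z).unique (h3' Y H Z)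

end

end Vale.Agent.P089G
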