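import Vale.Agent.P089GO.Inf
import Vale.Agent.P089GO.Mu
import Vale.Agent.P089GP.Plug

/-! P089: degenerate cycles vanish, and every class is the class of one cycle. -/

set_option linter.unusedSectionVars false

namespace Vale.Agent.P089G

open Vale.Agent.P089Z Topology TopologicalSpace Vale.Agent.P089GO
open scoped ZeroAtInfty

section

variable {G Y : Type} [Group G] [TopologicalSpace Y] [MulAction G Y] [ContinuousConstSMul G Y]
  {H K : Type} [NormedAddCommGroup H] [InnerProductSpace ℂ H] [CompleteSpace H]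
  [NormedAddCommGroup K] [InnerProductSpace ℂ K] [CompleteSpace K]

/-- A degenerate cycle: the four compact operators vanish. -/
structure Degenerate (Z : Cycle G Y H) : Prop where
  sq : ∀ f, Z.ρ f * (Z.F * Z.F - 1) = 0
  sa : ∀ f, Z.ρ f * (Z.F - star Z.F) = 0
  comm : ∀ f, Z.ρ f * Z.F - Z.F * Z.ρ f = 0
  inv : ∀ g f, Z.ρ f * ((Z.U g).1 * Z.F * (Z.U g⁻¹).1 - Z.F) = 0

theorem deg_of {Z : Cycle G Y H} (h : Deg Z) : Degenerate Z where
  sq f := by rw [h.sq, sub_self, mul_zero]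
  sa f := by rw [h.sa, sub_self, mul_zero]
  comm f := by rw [h.comm, sub_self]
  inv g f := by rw [← h.inv, mul_assoc, Z.U_mul, mul_inv_cancel, Z.U_one, mul_one, sub_self,
    mul_zero]

omit [CompleteSpace H] in
theorem am_sub (A B : H →L[ℂ] H) : am A - am B = am (A - B) := opL_ext fun _ _ => rfl

/-- The infinite sum of a degenerate cycle. -/
noncomputable def Degenerate.inf {Z : Cycle G Y H} (h : Degenerate Z) : Cycle G Y (L H) where
  γ := am Z.γ
  ρ := amHom Z.ρ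
  U := amU Z.U
  F := am Z.F
  γ_star := by rw [am_star, Z.γ_star]
  γ_sq := by rw [am_mul, Z.γ_sq, am_one]
  ρ_even f := by
    change am _ * am _ = am _ * am _
    rw [am_mul, am_mul, Z.ρ_even]
  U_even g := by
    change am _ * am _ = am _ * am _
    rw [am_mul, am_mul, Z.U_even]
  F_odd := by rw [am_mul, am_mul, am_neg, Z.F_odd]
  covariant g f := by
    change am _ * am _ * am _ = am _
    rw [am_mul, am_mul, Z.covariant]
  compact_sq f := by
    change IsCompactOperator (am (Z.ρ f) * (am Z.F * am Z.F - 1) : L H →L[ℂ] L H)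
    rw [am_mul, ← am_one, am_sub, am_mul, h.sq, am_zero]
    exact Cp.zero
  compact_star f := by
    change IsCompactOperator (am (Z.ρ f) * (am Z.F - star (am Z.F)) : L H →L[ℂ] L H)
    rw [am_star, am_sub, am_mul, h.sa, am_zero]
    exact Cp.zero
  compact_comm f := by
    change IsCompactOperator (am (Z.ρ f) * am Z.F - am Z.F * am (Z.ρ f) : L H →L[ℂ] L H)
    rw [am_mul, am_mul, am_sub, h.comm, am_zero]
    exact Cp.zero
  compact_inv g f := by
    change IsCompactOperator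
      (am (Z.ρ f) * (am (Z.U g).1 * am Z.F * am (Z.U g⁻¹).1 - am Z.F) : L H →L[ℂ] L H)
    rw [am_mul, am_mul, am_sub, am_mul, h.inv, am_zero]
    exact Cp.zero

theorem orthSum_sum (a : Cycle G Y H) (b : Cycle G Y K) : OrthSum a b (sum a b) :=
  ⟨i1 H K, i2 H K, ⟨adj_i1_i1, dg_i1 _ _, fun _ => dg_i1 _ _, fun _ => dg_i1 _ _, dg_i1 _ _⟩,
    ⟨adj_i2_i2, dg_i2 _ _, fun _ => dg_i2 _ _, fun _ => dg_i2 _ _, dg_i2 _ _⟩, i_sum⟩

theorem orthSum_inf {Z : Cycle G Y H} (h : Degenerate Z) : OrthSum Z h.inf h.inf :=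
  ⟨s0 H, sh H, ⟨adj_s0_s0, am_s0 _, fun _ => am_s0 _, fun _ => am_s0 _, am_s0 _⟩,
    ⟨adj_sh_sh, am_sh _, fun _ => am_sh _, fun _ => am_sh _, am_sh _⟩, s_sum⟩

theorem opHtpy_rot (Z : Cycle G Y H) : OpHtpy (sum Z (P089GO.op Z)) (rot Z 1) :=
  ⟨fun t => rot Z t, rot_zero Z, rfl, fun _ => ⟨rfl, rfl, rfl⟩,
    (rot_cont Z).comp continuous_subtype_val⟩

/-- The class of a cycle. -/
noncomputable def KK.cls (c : Cyc G Y) : KK G Y := Pres.of _ _ c

variable [SeparableSpace H] [SeparableSpace K]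

theorem KK.cls_deg {Z : Cycle G Y H} (h : Degenerate Z) : KK.cls ⟨H, Z⟩ = 0 := by
  have := L_sep (H := H)
  exact (add_eq_right.1 (Pres.of_sum (Cyc.IsSum.mk _ _ _ (orthSum_inf h))).symm)

theorem KK.cls_add (a : Cycle G Y H) (b : Cycle G Y K) :
    KK.cls ⟨H, a⟩ + KK.cls ⟨K, b⟩ = KK.cls (@Cyc.mk G Y _ _ _ _ (S H K) _ _ _ S_sep (sum a b)) :=
  have := S_sep (H := H) (K := K)
  (Pres.of_sum (Cyc.IsSum.mk _ _ _ (orthSum_sum a b))).symm

theorem KK.cls_op (Z : Cycle G Y H) : -KK.cls ⟨H, Z⟩ = KK.cls ⟨H, P089GO.op Z⟩ := by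
  have := S_sep (H := H) (K := H)
  rw [neg_eq_iff_add_eq_zero, KK.cls_add]
  exact (Pres.of_sim (Cyc.Sim.homotopy _ _ (opHtpy_rot Z))).trans
    (KK.cls_deg (deg_of (rot_deg Z)))

variable (G Y) in
/-- A cycle with zero representation. -/
noncomputable def nullCycle : Cycle G Y ℂ where
  γ := 1
  ρ := 0
  U := 1
  F := 0
  γ_star := star_one _
  γ_sq := mul_one _
  ρ_even _ := by rw [one_mul, mul_one]
  U_even _ := by rw [one_mul, mul_one]
  F_odd := by rw [mul_zero, zero_mul, neg_zero]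
  covariant _ _ := by
    change _ * 0 * _ = 0
    rw [mul_zero, zero_mul]
  compact_sq _ := by
    change IsCompactOperator (0 * _ : ℂ →L[ℂ] ℂ)
    rw [zero_mul]
    exact Cp.zero
  compact_star _ := by
    change IsCompactOperator (0 * _ : ℂ →L[ℂ] ℂ)
    rw [zero_mul]
    exact Cp.zero
  compact_comm _ := by
    change IsCompactOperator (0 * _ - _ * 0 : ℂ →L[ℂ] ℂ)
    rw [zero_mul, sub_zero]
    exact Cp.zero
  compact_inv _ _ := by
    change IsCompactOperator (0 * _ : ℂ →L[ℂ] ℂ)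
    rw [zero_mul]
    exact Cp.zero

theorem nullCycle_deg : Degenerate (nullCycle G Y) :=
  ⟨fun _ => zero_mul _, fun _ => zero_mul _, fun _ => sub_self _, fun _ _ => zero_mul _⟩

/-- Every element of `KK G Y` is the class of a cycle. -/
theorem KK.cls_surj (x : KK G Y) : ∃ c, KK.cls c = x := by
  refine Pres.ind (p := fun x => ∃ c, KK.cls c = x) ⟨_, KK.cls_deg nullCycle_deg⟩
    (fun c => ⟨c, rfl⟩) ?_ ?_ x
  · rintro _ ⟨@⟨H, _, _, _, _, Z⟩, rfl⟩
    exact ⟨_, (KK.cls_op Z).symm⟩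
  · rintro _ _ ⟨@⟨H, _, _, _, _, a⟩, rfl⟩ ⟨@⟨K, _, _, _, _, b⟩, rfl⟩
    exact ⟨_, (KK.cls_add a b).symm⟩

end

variable {G X : Type} [Group G] [TopologicalSpace X] [MulAction G X] [ContinuousConstSMul G X]
  [CWComplex (Set.univ : Set X)]

theorem KG0.cls_deg {Y : Sub G X} {H : Type} [NormedAddCommGroup H] [InnerProductSpace ℂ H]
    [CompleteSpace H] [SeparableSpace H] {Z : Cycle G Y.Y H} (h : Degenerate Z) :
    KG0.cls Y ⟨H, Z⟩ = 0 :=
  (congrArg (AddCommGroup.DirectLimit.of (fun Y : Sub G X => KK G Y.Y) Sub.push Y)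
    (KK.cls_deg h)).trans (map_zero _)

/-- Every element of `KG0 G X` is the class of one cycle over one subcomplex. -/
theorem IsEG.cls_surj (h : IsEG G X) (x : KG0 G X) : ∃ Y c, KG0.cls Y c = x := by
  have := h.directed
  have := h.nonempty_sub
  refine AddCommGroup.DirectLimit.induction_on (G := fun Y : Sub G X => KK G Y.Y)
    (f := Sub.push) (C := fun x => ∃ Y c, KG0.cls Y c = x) x fun Y z => ?_
  obtain ⟨c, rfl⟩ := KK.cls_surj z
  exact ⟨Y, c, rfl⟩

end Vale.Agent.P089G
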