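import Vale.Agent.P089Z.Cyc
import Mathlib.Analysis.InnerProductSpace.ProdL2
import Mathlib.Analysis.SpecialFunctions.Trigonometric.Basic

/-! Sums, opposites and rotations of equivariant cycles; degenerate cycles have index zero. -/

set_option linter.unusedSectionVars false

namespace Vale.Agent.P089GO

open scoped InnerProductSpace ZeroAtInfty
open Vale.Agent.P089Z ContinuousLinearMap

/-- The orthogonal sum of two Hilbert spaces. -/
abbrev S (H K : Type) : Type := WithLp 2 (H × K)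

section Blk

variable {H K : Type} [NormedAddCommGroup H] [InnerProductSpace ℂ H]
  [NormedAddCommGroup K] [InnerProductSpace ℂ K]

theorem S_ext {x y : S H K} (h1 : x.fst = y.fst) (h2 : x.snd = y.snd) : x = y :=
  (WithLp.ofLp_injective 2) (Prod.ext h1 h2)

theorem S_sep [TopologicalSpace.SeparableSpace H] [TopologicalSpace.SeparableSpace K] :
    TopologicalSpace.SeparableSpace (S H K) := by
  have : SecondCountableTopology H := UniformSpace.secondCountable_of_separable H
  have : SecondCountableTopology K := UniformSpace.secondCountable_of_separable K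
  infer_instance

variable (H K) in
/-- first projection -/
noncomputable def p1 : S H K →L[ℂ] H := WithLp.fstL 2 ℂ H K

variable (H K) in
/-- second projection -/
noncomputable def p2 : S H K →L[ℂ] K := WithLp.sndL 2 ℂ H K

variable (H K) in
/-- first inclusion -/
noncomputable def i1 : H →L[ℂ] S H K :=
  ((WithLp.prodContinuousLinearEquiv 2 ℂ H K).symm : H × K →L[ℂ] S H K) ∘L inl ℂ H K

variable (H K) in
/-- second inclusion -/
noncomputable def i2 : K →L[ℂ] S H K :=
  ((WithLp.prodContinuousLinearEquiv 2 ℂ H K).symm : H × K →L[ℂ] S H K) ∘L inr ℂ H K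

@[simp] theorem p1_apply (x : S H K) : p1 H K x = x.fst := rfl
@[simp] theorem p2_apply (x : S H K) : p2 H K x = x.snd := rfl
@[simp] theorem i1_fst (x : H) : (i1 H K x).fst = x := rfl
@[simp] theorem i1_snd (x : H) : (i1 H K x).snd = 0 := rfl
@[simp] theorem i2_fst (x : K) : (i2 H K x).fst = 0 := rfl
@[simp] theorem i2_snd (x : K) : (i2 H K x).snd = x := rfl

theorem S_inner (x y : S H K) : ⟪x, y⟫_ℂ = ⟪x.fst, y.fst⟫_ℂ + ⟪x.snd, y.snd⟫_ℂ :=
  WithLp.prod_inner_apply x y

theorem op_ext {M : Type} [NormedAddCommGroup M] [InnerProductSpace ℂ M] {A B : M →L[ℂ] S H K}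
    (h1 : ∀ x, (A x).fst = (B x).fst) (h2 : ∀ x, (A x).snd = (B x).snd) : A = B :=
  ContinuousLinearMap.ext fun x => S_ext (h1 x) (h2 x)

/-- The diagonal operator. -/
noncomputable def dg (A : H →L[ℂ] H) (D : K →L[ℂ] K) : S H K →L[ℂ] S H K :=
  i1 H K ∘L A ∘L p1 H K + i2 H K ∘L D ∘L p2 H K

@[simp] theorem dg_fst (A : H →L[ℂ] H) (D : K →L[ℂ] K) (x : S H K) :
    (dg A D x).fst = A x.fst := by simp [dg]

@[simp] theorem dg_snd (A : H →L[ℂ] H) (D : K →L[ℂ] K) (x : S H K) :
    (dg A D x).snd = D x.snd := by simp [dg]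

theorem dg_mul (A A' : H →L[ℂ] H) (D D' : K →L[ℂ] K) :
    dg A D * dg A' D' = dg (A * A') (D * D') := op_ext (by simp) (by simp)

theorem dg_add (A A' : H →L[ℂ] H) (D D' : K →L[ℂ] K) :
    dg A D + dg A' D' = dg (A + A') (D + D') := op_ext (by simp) (by simp)

theorem dg_sub (A A' : H →L[ℂ] H) (D D' : K →L[ℂ] K) :
    dg A D - dg A' D' = dg (A - A') (D - D') := op_ext (by simp) (by simp)

theorem dg_neg (A : H →L[ℂ] H) (D : K →L[ℂ] K) : -dg A D = dg (-A) (-D) :=
  op_ext (by simp) (by simp)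

theorem dg_smul (c : ℂ) (A : H →L[ℂ] H) (D : K →L[ℂ] K) : c • dg A D = dg (c • A) (c • D) :=
  op_ext (by simp) (by simp)

theorem dg_one : dg (1 : H →L[ℂ] H) (1 : K →L[ℂ] K) = 1 := op_ext (by simp) (by simp)

theorem dg_zero : dg (0 : H →L[ℂ] H) (0 : K →L[ℂ] K) = 0 := op_ext (by simp) (by simp)

theorem dg_i1 (A : H →L[ℂ] H) (D : K →L[ℂ] K) : dg A D ∘L i1 H K = i1 H K ∘L A :=
  op_ext (by simp) (by simp)

theorem dg_i2 (A : H →L[ℂ] H) (D : K →L[ℂ] K) : dg A D ∘L i2 H K = i2 H K ∘L D :=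
  op_ext (by simp) (by simp)

theorem dg_cp {A : H →L[ℂ] H} {D : K →L[ℂ] K} (hA : IsCompactOperator A)
    (hD : IsCompactOperator D) : IsCompactOperator (dg A D) :=
  ((hA.comp_clm (p1 H K)).clm_comp (i1 H K)).add ((hD.comp_clm (p2 H K)).clm_comp (i2 H K))

variable (H) in
/-- The flip of `H ⊕ H`. -/
noncomputable def flip : S H H →L[ℂ] S H H := i1 H H ∘L p2 H H + i2 H H ∘L p1 H H

@[simp] theorem flip_fst (x : S H H) : (flip H x).fst = x.snd := by simp [flip]
@[simp] theorem flip_snd (x : S H H) : (flip H x).snd = x.fst := by simp [flip]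

theorem flip_sq : flip H * flip H = 1 := op_ext (by simp) (by simp)

theorem flip_dg (A D : H →L[ℂ] H) : flip H * dg A D = dg D A * flip H := op_ext (by simp) (by simp)

variable [CompleteSpace H] [CompleteSpace K]

theorem adj_i1 : adjoint (i1 H K) = p1 H K := by
  symm
  rw [eq_adjoint_iff]
  intro x y
  simp

theorem adj_i2 : adjoint (i2 H K) = p2 H K := by
  symm
  rw [eq_adjoint_iff]
  intro x y
  simp

theorem adj_i1_i1 : adjoint (i1 H K) ∘L i1 H K = 1 := by
  rw [adj_i1]; rfl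

theorem adj_i2_i2 : adjoint (i2 H K) ∘L i2 H K = 1 := by
  rw [adj_i2]; rfl

theorem i_sum : i1 H K ∘L adjoint (i1 H K) + i2 H K ∘L adjoint (i2 H K) = 1 := by
  rw [adj_i1, adj_i2]
  exact op_ext (by simp) (by simp)

theorem dg_star (A : H →L[ℂ] H) (D : K →L[ℂ] K) : star (dg A D) = dg (star A) (star D) := by
  symm
  rw [star_eq_adjoint (dg A D), eq_adjoint_iff]
  intro x y
  simp [star_eq_adjoint, adjoint_inner_left]

theorem flip_star : star (flip H) = flip H := by
  symm
  rw [star_eq_adjoint, eq_adjoint_iff]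
  intro x y
  simp [add_comm]

/-- The diagonal sum of two representations. -/
noncomputable def dgHom {A : Type} [NonUnitalNonAssocSemiring A] [DistribMulAction ℂ A] [Star A]
    (ρ : A →⋆ₙₐ[ℂ] (H →L[ℂ] H)) (σ : A →⋆ₙₐ[ℂ] (K →L[ℂ] K)) :
    A →⋆ₙₐ[ℂ] (S H K →L[ℂ] S H K) where
  toFun a := dg (ρ a) (σ a)
  map_smul' c a := by rw [map_smul, map_smul, ← dg_smul]; rfl
  map_zero' := by rw [map_zero, map_zero, dg_zero]
  map_add' a b := by rw [map_add, map_add, dg_add]
  map_mul' a b := by rw [map_mul, map_mul, dg_mul]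
  map_star' a := by rw [map_star, map_star, dg_star]

/-- The diagonal sum of two unitary representations. -/
noncomputable def dgU {G : Type} [Group G] (U : G →* unitary (H →L[ℂ] H))
    (V : G →* unitary (K →L[ℂ] K)) : G →* unitary (S H K →L[ℂ] S H K) where
  toFun g := ⟨dg (U g).1 (V g).1, by
    constructor
    · rw [dg_star, dg_mul, (U g).2.1, (V g).2.1, dg_one]
    · rw [dg_star, dg_mul, (U g).2.2, (V g).2.2, dg_one]⟩
  map_one' := Subtype.ext (by
    change dg (U 1).1 (V 1).1 = 1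
    rw [map_one, map_one]
    exact dg_one)
  map_mul' g h := Subtype.ext (by
    change dg (U (g * h)).1 (V (g * h)).1 = dg (U g).1 (V g).1 * dg (U h).1 (V h).1
    rw [map_mul, map_mul, dg_mul]
    rfl)

end Blk

variable {G X : Type} [Group G] [TopologicalSpace X] [MulAction G X] [ContinuousConstSMul G X]
  {H K : Type} [NormedAddCommGroup H] [InnerProductSpace ℂ H] [CompleteSpace H]
  [NormedAddCommGroup K] [InnerProductSpace ℂ K] [CompleteSpace K]

/-- The sum of two cycles. -/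
noncomputable def sum (Z : Cycle G X H) (W : Cycle G X K) : Cycle G X (S H K) where
  γ := dg Z.γ W.γ
  ρ := dgHom Z.ρ W.ρ
  U := dgU Z.U W.U
  F := dg Z.F W.F
  γ_star := by rw [dg_star, Z.γ_star, W.γ_star]
  γ_sq := by rw [dg_mul, Z.γ_sq, W.γ_sq, dg_one]
  ρ_even f := by
    change dg _ _ * dg _ _ = dg _ _ * dg _ _
    rw [dg_mul, dg_mul, Z.ρ_even, W.ρ_even]
  U_even g := by
    change dg _ _ * dg _ _ = dg _ _ * dg _ _
    rw [dg_mul, dg_mul, Z.U_even, W.U_even]
  F_odd := by rw [dg_mul, dg_mul, dg_neg, Z.F_odd, W.F_odd]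
  covariant g f := by
    change dg _ _ * dg _ _ * dg _ _ = dg _ _
    rw [dg_mul, dg_mul, Z.covariant, W.covariant]
  compact_sq f := by
    change IsCompactOperator (dg _ _ * (dg _ _ * dg _ _ - 1) : S H K →L[ℂ] S H K)
    rw [dg_mul, ← dg_one, dg_sub, dg_mul]
    exact dg_cp (Z.compact_sq f) (W.compact_sq f)
  compact_star f := by
    change IsCompactOperator (dg _ _ * (dg _ _ - star (dg _ _)) : S H K →L[ℂ] S H K)
    rw [dg_star, dg_sub, dg_mul]
    exact dg_cp (Z.compact_star f) (W.compact_star f)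
  compact_comm f := by
    change IsCompactOperator (dg _ _ * dg _ _ - dg _ _ * dg _ _ : S H K →L[ℂ] S H K)
    rw [dg_mul, dg_mul, dg_sub]
    exact dg_cp (Z.compact_comm f) (W.compact_comm f)
  compact_inv g f := by
    change IsCompactOperator
      (dg _ _ * (dg _ _ * dg _ _ * dg _ _ - dg _ _) : S H K →L[ℂ] S H K)
    rw [dg_mul, dg_mul, dg_sub, dg_mul]
    exact dg_cp (Z.compact_inv g f) (W.compact_inv g f)

theorem sum_γ (Z : Cycle G X H) (W : Cycle G X K) : (sum Z W).γ = dg Z.γ W.γ := rfl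
theorem sum_ρ (Z : Cycle G X H) (W : Cycle G X K) (f : C₀(X, ℂ)) :
    (sum Z W).ρ f = dg (Z.ρ f) (W.ρ f) := rfl
theorem sum_U (Z : Cycle G X H) (W : Cycle G X K) (g : G) :
    ((sum Z W).U g).1 = dg (Z.U g).1 (W.U g).1 := rfl
theorem sum_F (Z : Cycle G X H) (W : Cycle G X K) : (sum Z W).F = dg Z.F W.F := rfl

/-- The opposite cycle. -/
noncomputable def op (Z : Cycle G X H) : Cycle G X H where
  γ := -Z.γ
  ρ := Z.ρ
  U := Z.U
  F := -Z.F
  γ_star := by rw [star_neg, Z.γ_star]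
  γ_sq := by rw [neg_mul_neg, Z.γ_sq]
  ρ_even f := by rw [neg_mul, mul_neg, Z.ρ_even]
  U_even g := by rw [neg_mul, mul_neg, Z.U_even]
  F_odd := by rw [neg_mul_neg, neg_mul_neg, Z.F_odd]
  covariant := Z.covariant
  compact_sq f := by rw [neg_mul_neg]; exact Z.compact_sq f
  compact_star f := by
    have h : Z.ρ f * (-Z.F - star (-Z.F)) = -(Z.ρ f * (Z.F - star Z.F)) := by
      rw [star_neg]; noncomm_ring
    rw [h]
    exact Cp.neg (Z.compact_star f)
  compact_comm f := by
    have h : Z.ρ f * -Z.F - -Z.F * Z.ρ f = -(Z.ρ f * Z.F - Z.F * Z.ρ f) := by noncomm_ring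
    rw [h]
    exact Cp.neg (Z.compact_comm f)
  compact_inv g f := by
    have h : Z.ρ f * ((Z.U g).1 * -Z.F * (Z.U g⁻¹).1 - -Z.F) =
        -(Z.ρ f * ((Z.U g).1 * Z.F * (Z.U g⁻¹).1 - Z.F)) := by noncomm_ring
    rw [h]
    exact Cp.neg (Z.compact_inv g f)

/-- A degenerate cycle. -/
structure Deg (Z : Cycle G X H) : Prop where
  sq : Z.F * Z.F = 1
  sa : star Z.F = Z.F
  comm : ∀ f, Z.F * Z.ρ f = Z.ρ f * Z.F
  inv : ∀ g, Z.F * (Z.U g).1 = (Z.U g).1 * Z.F

/-- `σ` is a degenerate operator for the data of `W` which anticommutes with the operator. -/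
structure Tw (W : Cycle G X H) (σ : H →L[ℂ] H) : Prop where
  sq : σ * σ = 1
  sa : star σ = σ
  comm : ∀ f, σ * W.ρ f = W.ρ f * σ
  inv : ∀ g, σ * (W.U g).1 = (W.U g).1 * σ
  odd : W.γ * σ = -(σ * W.γ)
  anti : W.F * σ = -(σ * W.F)

theorem cp_smul (c : ℂ) {T : H →L[ℂ] H} (h : IsCompactOperator T) :
    IsCompactOperator (c • T : H →L[ℂ] H) := h.smul c

/-- The cycle with the operator `c F + s σ`. -/
noncomputable def Tw.cyc {W : Cycle G X H} {σ : H →L[ℂ] H} (h : Tw W σ) (c s : ℝ)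
    (hcs : c ^ 2 + s ^ 2 = 1) : Cycle G X H where
  γ := W.γ
  ρ := W.ρ
  U := W.U
  F := (c : ℂ) • W.F + (s : ℂ) • σ
  γ_star := W.γ_star
  γ_sq := W.γ_sq
  ρ_even := W.ρ_even
  U_even := W.U_even
  F_odd := by
    rw [mul_add, add_mul, mul_smul_comm, mul_smul_comm, smul_mul_assoc, smul_mul_assoc, W.F_odd,
      h.odd, smul_neg, smul_neg, neg_add]
  covariant := W.covariant
  compact_sq f := by
    have h0 : (s : ℂ) * s = 1 - (c : ℂ) * c := by
      have : ((c ^ 2 + s ^ 2 : ℝ) : ℂ) = 1 := by rw [hcs]; rfl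
      push_cast at this
      linear_combination this
    have h1 : ((c : ℂ) • W.F + (s : ℂ) • σ) * ((c : ℂ) • W.F + (s : ℂ) • σ) - 1 =
        ((c : ℂ) * c) • (W.F * W.F - 1) := by
      rw [add_mul, mul_add, mul_add, smul_mul_smul_comm, smul_mul_smul_comm, smul_mul_smul_comm,
        smul_mul_smul_comm, h.anti, h.sq, h0, mul_comm (s : ℂ) c, smul_neg, sub_smul, one_smul,
        smul_sub]
      abel
    rw [h1, mul_smul_comm]
    exact cp_smul _ (W.compact_sq f)
  compact_star f := by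
    have h1 : ((c : ℂ) • W.F + (s : ℂ) • σ) - star ((c : ℂ) • W.F + (s : ℂ) • σ) =
        (c : ℂ) • (W.F - star W.F) := by
      rw [star_add, star_smul, star_smul, h.sa, Complex.star_def, Complex.conj_ofReal,
        Complex.conj_ofReal, smul_sub]
      abel
    rw [h1, mul_smul_comm]
    exact cp_smul _ (W.compact_star f)
  compact_comm f := by
    have h1 : W.ρ f * ((c : ℂ) • W.F + (s : ℂ) • σ) - ((c : ℂ) • W.F + (s : ℂ) • σ) * W.ρ f =
        (c : ℂ) • (W.ρ f * W.F - W.F * W.ρ f) := by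
      rw [mul_add, add_mul, mul_smul_comm, mul_smul_comm, smul_mul_assoc, smul_mul_assoc, h.comm,
        smul_sub]
      abel
    rw [h1]
    exact cp_smul _ (W.compact_comm f)
  compact_inv g f := by
    have h2 : (W.U g).1 * σ * (W.U g⁻¹).1 = σ := by
      rw [← h.inv, mul_assoc, W.U_mul, mul_inv_cancel, W.U_one, mul_one]
    have h1 : (W.U g).1 * ((c : ℂ) • W.F + (s : ℂ) • σ) * (W.U g⁻¹).1 -
        ((c : ℂ) • W.F + (s : ℂ) • σ) =
        (c : ℂ) • ((W.U g).1 * W.F * (W.U g⁻¹).1 - W.F) := by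
      rw [mul_add, add_mul, mul_smul_comm, mul_smul_comm, smul_mul_assoc, smul_mul_assoc, h2,
        smul_sub]
      abel
    rw [h1, mul_smul_comm]
    exact cp_smul _ (W.compact_inv g f)

theorem tw_flip (Z : Cycle G X H) : Tw (sum Z (op Z)) (flip H) where
  sq := flip_sq
  sa := flip_star
  comm _ := flip_dg _ _
  inv _ := flip_dg _ _
  odd := by
    change dg Z.γ (-Z.γ) * flip H = -(flip H * dg Z.γ (-Z.γ))
    rw [flip_dg]
    exact op_ext (by simp) (by simp)
  anti := by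
    change dg Z.F (-Z.F) * flip H = -(flip H * dg Z.F (-Z.F))
    rw [flip_dg]
    exact op_ext (by simp) (by simp)

theorem cycle_ext {Z W : Cycle G X H} (h1 : Z.γ = W.γ) (h2 : Z.ρ = W.ρ) (h3 : Z.U = W.U)
    (h4 : Z.F = W.F) : Z = W := by
  cases Z
  cases W
  cases h1
  cases h2
  cases h3
  cases h4
  rfl

/-- The rotation from `Z ⊕ op Z` to a degenerate cycle. -/
noncomputable def rot (Z : Cycle G X H) (t : ℝ) : Cycle G X (S H H) :=
  (tw_flip Z).cyc (Real.cos (Real.pi / 2 * t)) (Real.sin (Real.pi / 2 * t))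
    (Real.cos_sq_add_sin_sq _)

theorem rot_γ (Z : Cycle G X H) (t : ℝ) : (rot Z t).γ = (sum Z (op Z)).γ := rfl
theorem rot_ρ (Z : Cycle G X H) (t : ℝ) : (rot Z t).ρ = (sum Z (op Z)).ρ := rfl
theorem rot_U (Z : Cycle G X H) (t : ℝ) : (rot Z t).U = (sum Z (op Z)).U := rfl
theorem rot_F (Z : Cycle G X H) (t : ℝ) : (rot Z t).F =
    (Real.cos (Real.pi / 2 * t) : ℂ) • (sum Z (op Z)).F +
      (Real.sin (Real.pi / 2 * t) : ℂ) • flip H := rfl

theorem rot_zero (Z : Cycle G X H) : rot Z 0 = sum Z (op Z) :=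
  cycle_ext rfl rfl rfl (by rw [rot_F]; simp)

theorem rot_one_F (Z : Cycle G X H) : (rot Z 1).F = flip H := by
  rw [rot_F]; simp

theorem rot_cont (Z : Cycle G X H) : Continuous fun t => (rot Z t).F := by
  simp only [rot_F]
  fun_prop

theorem rot_deg (Z : Cycle G X H) : Deg (rot Z 1) where
  sq := by rw [rot_one_F]; exact flip_sq
  sa := by rw [rot_one_F]; exact flip_star
  comm f := by rw [rot_one_F]; exact (tw_flip Z).comm f
  inv g := by rw [rot_one_F]; exact (tw_flip Z).inv g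

theorem deg_alg {B : Type} [Ring B] {p F e e' : B} (hp : p * p = p) (he : e * e = e)
    (he' : e' * e' = e') (h1 : p * e = e * p) (h2 : p * e' = e' * p) (h3 : p * F = F * p)
    (h4 : F * e' = e * F) (hF : F * F = 1) :
    p * e - p * e * F * (p * e') * (p * e' * F * (p * e)) = 0 := by
  have a1 : p * e' * (p * e') = p * e' := mul_idem hp he' h2
  have a2 : p * e * (p * e) = p * e := mul_idem hp he h1
  have a3 : F * (p * e') = p * e * F := by rw [← mul_assoc, ← h3, mul_assoc, h4, mul_assoc]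
  have a4 : p * e * F * (p * e') * (p * e' * F * (p * e)) =
      p * e * (F * (p * e' * (p * e'))) * (F * (p * e)) := by simp only [mul_assoc]
  have a5 : p * e * (p * e * F) * (F * (p * e)) = p * e * (p * e) * (F * F) * (p * e) := by
    simp only [mul_assoc]
  rw [a4, a1, a3, a5, hF, mul_one, a2, a2, sub_self]

/-- The index matrix of a degenerate cycle vanishes. -/
theorem Deg.index_eq_zero {Z : Cycle G X H} (h : Deg Z) {w : C₀(X, ℂ)} (hw : IsCutoff G X w)
    (hfin : {s : G | w * shift s w ≠ 0}.Finite) : Z.index (Z.proj w) = 0 := by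
  have hF : (MonoidAlgebra.single (1 : G) Z.F) * MonoidAlgebra.single 1 Z.F = 1 := by
    rw [MonoidAlgebra.single_mul_single, mul_one, h.sq, MonoidAlgebra.one_def]
  have hc := Z.proj_comm hfin h.comm h.inv
  have h0 : Z.even (Z.proj w) - (Z.even (Z.proj w) * MonoidAlgebra.single 1 Z.F * Z.odd (Z.proj w)) *
      (Z.odd (Z.proj w) * MonoidAlgebra.single 1 Z.F * Z.even (Z.proj w)) = 0 :=
    deg_alg (Z.proj_idem hw hfin) (single_idem Z.e₀_idem) (single_idem Z.e₁_idem) (Z.comm₀ hfin)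
      (Z.comm₁ hfin) hc (single_tw Z.F_e₁) hF
  have h1 : Z.odd (Z.proj w) - (Z.odd (Z.proj w) * MonoidAlgebra.single 1 Z.F * Z.even (Z.proj w)) *
      (Z.even (Z.proj w) * MonoidAlgebra.single 1 Z.F * Z.odd (Z.proj w)) = 0 :=
    deg_alg (Z.proj_idem hw hfin) (single_idem Z.e₁_idem) (single_idem Z.e₀_idem) (Z.comm₁ hfin)
      (Z.comm₀ hfin) hc (single_tw Z.F_e₀) hF
  rw [Cycle.index, indexMat, h0, h1]
  ext1 i j
  fin_cases i <;> fin_cases j <;> simp

end Vale.Agent.P089GO
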